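import Vale.Agent.P039.Merge
import Mathlib.Data.Finset.Max
import Mathlib.GroupTheory.Perm.Sign
import Mathlib.Combinatorics.SimpleGraph.DeleteEdges
import Mathlib.Combinatorics.SimpleGraph.Connectivity.Connected

/-!
A bipartite cubic graph with three perfect matchings `a`, `b`, `c` is Hamiltonian when no two
edges disconnect it and, among the cycles of `a ∪ b`, all but one hexagon are quadrilaterals or
belong to a family which forms a hyperforest on the cycles of `a ∪ c`.
-/

namespace Vale.Agent.Results.P039.QuadrilateralForestClass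

open Equiv Equiv.Perm Vale.Agent.P039

theorem result {V : Type*} [Fintype V] [DecidableEq V] (col : V → Bool) (a b c : Perm V)
    (ha : ∀ v, a (a v) = v) (hb : ∀ v, b (b v) = v) (hc : ∀ v, c (c v) = v)
    (hca : ∀ v, col (a v) = !col v) (hcb : ∀ v, col (b v) = !col v)
    (hcc : ∀ v, col (c v) = !col v) (hab : ∀ v, a v ≠ b v)
    (h3 : ∀ e f : Sym2 V,
      ((SimpleGraph.fromRel fun v w => w = a v ∨ w = b v ∨ w = c v).deleteEdges {e, f}).Connected)
    (rk : V → ℕ) (v1 : V) (h1 : col v1 = true)
    (hrk : ∀ u w, col u = true → col w = true → rk u ≠ 0 →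
      (rk u = rk w ↔ SameCycle (a * b) u w))
    (hforest : ∀ u w, col u = true → col w = true → rk u ≠ 0 → rk u = rk w →
      (SameCycle (c * a) u w ∨
        ((∃ u', col u' = true ∧ rk u' ≠ 0 ∧ rk u' < rk u ∧ SameCycle (c * a) u u') ∧
          ∃ w', col w' = true ∧ rk w' ≠ 0 ∧ rk w' < rk w ∧ SameCycle (c * a) w w')) →
      u = w)
    (hex : rk v1 ≠ 0 ∨ ((a * b) ^ 3) v1 = v1 ∨ ((a * b) ^ 2) v1 = v1)
    (hsq : ∀ w, col w = true →
      rk w ≠ 0 ∨ ((a * b) ^ 2) w = w ∨ SameCycle (a * b) v1 w) :
    (SimpleGraph.fromRel fun v w => w = a v ∨ w = b v ∨ w = c v).IsHamiltonian := by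
  set G := SimpleGraph.fromRel fun v w => w = a v ∨ w = b v ∨ w = c v with hG
  have adj : ∀ v w, col w ≠ col v → (w = a v ∨ w = b v ∨ w = c v) → G.Adj v w :=
    fun v w hne h => by
      rw [hG, SimpleGraph.fromRel_adj]
      exact ⟨fun e => hne (by rw [e]), Or.inl h⟩
  have hP : ∀ v, col ((a * b) v) = true ↔ col v = true := fun v => by
    simp [mul_apply, hca, hcb]
  have hS : ∀ v, col ((c * a) v) = true ↔ col v = true := fun v => by
    simp [mul_apply, hca, hcc]
  set P : Perm {v // col v = true} := (a * b).subtypePerm hP with hPdef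
  set S : Perm {v // col v = true} := (c * a).subtypePerm hS with hSdef
  have hPv : ∀ w : {v // col v = true}, (P w : V) = a (b w) := fun w => rfl
  have hSv : ∀ w : {v // col v = true}, (S w : V) = c (a w) := fun w => rfl
  have pc : ∀ u w : {v // col v = true}, SameCycle P u w ↔ SameCycle (a * b) (u : V) w := fun u w =>
    sameCycle_subtypePerm
  let r1 : {v // col v = true} := ⟨v1, h1⟩
  have sq : ∀ w : {v // col v = true}, P (P w) = w ↔ ((a * b) ^ 2) (w : V) = w := fun w => by
    rw [Subtype.ext_iff, hPv, hPv]
    simp [pow_two, mul_apply]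
  -- the cycles of the forest are toggled in increasing order of rank
  have sc : ∀ u w : {v // col v = true}, SameCycle S u w ↔ SameCycle (c * a) (u : V) w :=
    fun u w => sameCycle_subtypePerm
  let T : ℕ → {v // col v = true} → Prop := fun k x =>
    ∃ u : {v // col v = true}, rk u ≠ 0 ∧ rk u < k ∧ SameCycle S x u
  have stage : ∀ k, ∃ σ : Perm {v // col v = true},
      (∀ w : {v // col v = true}, (σ w : V) = c (a w) ∨ (σ w : V) = c (b w)) ∧
      (∀ w : {v // col v = true}, rk w = 0 ∨ k ≤ rk w → σ w = S w) ∧
      (∀ x y, SameCycle S x y → SameCycle σ x y) ∧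
      (∀ w : {v // col v = true}, rk w ≠ 0 → rk w < k → SameCycle σ w (P w)) ∧
      ∀ x y, SameCycle σ x y → SameCycle S x y ∨ (T k x ∧ T k y) := by
    intro k
    classical
    induction k with
    | zero =>
      exact ⟨S, fun w => Or.inl (hSv w), fun _ _ => rfl, fun _ _ h => h,
        fun w _ h => absurd h (Nat.not_lt_zero _), fun _ _ h => Or.inl h⟩
    | succ k ih =>
      obtain ⟨σ, hform, hfix, hext, hmer, hinv⟩ := ih
      have hK : ∀ w : {v // col v = true},
          (rk (P w) = k ∧ k ≠ 0) ↔ (rk w = k ∧ k ≠ 0) := by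
        intro w
        have hs : SameCycle (a * b) (w : V) (P w) :=
          (pc _ _).1 (sameCycle_apply_right.2 (SameCycle.refl _ _))
        refine ⟨fun ⟨h, hk⟩ => ⟨?_, hk⟩, fun ⟨h, hk⟩ => ⟨?_, hk⟩⟩
        · rw [← h]
          exact ((hrk _ _ (P w).2 w.2 (by omega)).2 hs.symm).symm
        · rw [← h]
          exact ((hrk _ _ w.2 (P w).2 (by omega)).2 hs).symm
      set τ := Perm.ofSubtype (P.subtypePerm (p := fun w : {v // col v = true} => rk w = k ∧ k ≠ 0) hK) with hτ
      have tau : ∀ w : {v // col v = true},
          (rk w = k ∧ k ≠ 0) ∧ τ w = P w ∨ ¬(rk w = k ∧ k ≠ 0) ∧ τ w = w := by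
        intro w
        by_cases h : rk w = k ∧ k ≠ 0
        · exact Or.inl ⟨h, by rw [hτ, Perm.ofSubtype_apply_of_mem
              (p := fun w : {v // col v = true} => rk w = k ∧ k ≠ 0) (a := w) _ h]; rfl⟩
        · exact Or.inr ⟨h, by rw [hτ, Perm.ofSubtype_apply_of_not_mem
              (p := fun w : {v // col v = true} => rk w = k ∧ k ≠ 0) (a := w) _ h]⟩
      have hmov : ∀ u : {v // col v = true}, τ u ≠ u → rk u = k ∧ k ≠ 0 := fun u hu =>
        (tau u).elim And.left fun h => absurd h.2 hu
      obtain ⟨hm1, hm2⟩ := merge σ τ fun u w hu hw huw => by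
        obtain ⟨hku, hk⟩ := hmov u hu
        obtain ⟨hkw, -⟩ := hmov w hw
        refine Subtype.ext (hforest u w u.2 w.2 (by omega) (by omega) ?_)
        rcases hinv u w huw with h | ⟨⟨u', hu0, hul, hus⟩, ⟨w', hw0, hwl, hws⟩⟩
        · exact Or.inl ((sc u w).1 h)
        · exact Or.inr ⟨⟨u', u'.2, hu0, by omega, (sc _ _).1 hus⟩,
            ⟨w', w'.2, hw0, by omega, (sc _ _).1 hws⟩⟩
      refine ⟨σ * τ, fun w => ?_, fun w hw => ?_, fun x y h => hm1 x y (hext x y h),
        fun w h0 hlt => ?_, ?_⟩
      · rw [mul_apply]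
        rcases tau w with ⟨⟨hk, hk0⟩, ht⟩ | ⟨-, ht⟩
        · rw [ht, hfix (P w) (Or.inr ((hK w).2 ⟨hk, hk0⟩).1.ge), hSv, hPv, ha]
          exact Or.inr rfl
        · rw [ht]; exact hform w
      · rw [mul_apply]
        rcases tau w with ⟨⟨hk, hk0⟩, -⟩ | ⟨-, ht⟩
        · omega
        · rw [ht]; exact hfix w (hw.imp_right (by omega))
      · rcases tau w with ⟨-, ht⟩ | ⟨hn, -⟩
        · exact ht ▸ hm2 w
        · exact hm1 _ _ (hmer w h0 (by by_contra hc'; exact hn ⟨by omega, by omega⟩))
      · have mono : ∀ x, T k x → T (k + 1) x := fun x ⟨u, h0, hlt, hs⟩ =>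
          ⟨u, h0, by omega, hs⟩
        let R : {v // col v = true} → {v // col v = true} → Prop := fun x y =>
          SameCycle S x y ∨ (T (k + 1) x ∧ T (k + 1) y)
        have sat : ∀ x y, SameCycle S x y → T (k + 1) y → T (k + 1) x :=
          fun x y h ⟨u, h0, hlt, hs⟩ => ⟨u, h0, hlt, h.trans hs⟩
        have Rtrans : ∀ x y z, R x y → R y z → R x z := by
          intro x y z hxy hyz
          rcases hxy with h | ⟨hx, hy⟩ <;> rcases hyz with h' | ⟨hy', hz⟩
          · exact Or.inl (h.trans h')
          · exact Or.inr ⟨sat _ _ h hy', hz⟩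
          · exact Or.inr ⟨hx, sat _ _ h'.symm hy⟩
          · exact Or.inr ⟨hx, hz⟩
        intro x y hxy
        obtain ⟨i, -, rfl⟩ := hxy.exists_pow_eq'
        clear hxy
        induction i with
        | zero => exact Or.inl (SameCycle.refl _ _)
        | succ i ih =>
          rw [pow_succ', mul_apply (σ * τ), mul_apply σ τ]
          set z := ((σ * τ) ^ i) x
          refine Rtrans _ z _ ih (Rtrans _ (τ z) _ ?_ ?_)
          · rcases tau z with ⟨⟨hk, hk0⟩, ht⟩ | ⟨-, ht⟩
            · rw [ht]
              exact Or.inr ⟨⟨z, by omega, by omega, SameCycle.refl _ _⟩,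
                ⟨P z, by have := (hK z).2 ⟨hk, hk0⟩; omega,
                  by have := (hK z).2 ⟨hk, hk0⟩; omega, SameCycle.refl _ _⟩⟩
            · rw [ht]; exact Or.inl (SameCycle.refl _ _)
          · exact (hinv _ _ (sameCycle_apply_right.2 (SameCycle.refl _ _))).imp_right
              fun h => ⟨mono _ h.1, mono _ h.2⟩
  obtain ⟨σ1, hF, -, hS1, hexc, -⟩ := stage (Finset.univ.sup rk + 1)
  have hexc' : ∀ w : {v // col v = true}, rk w ≠ 0 → SameCycle σ1 w (P w) := fun w h =>
    hexc w h (Nat.lt_succ_of_le (Finset.le_sup (Finset.mem_univ _)))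
  -- quadrilaterals are toggled while some cycle can still be merged
  classical
  let Good := (Finset.univ : Finset (Perm {v // col v = true})).filter fun σ =>
    (∀ w : {v // col v = true}, (σ w : V) = c (a w) ∨ (σ w : V) = c (b w)) ∧
      ∀ x y, SameCycle σ1 x y → SameCycle σ x y
  obtain ⟨σ, hσ, hmax⟩ := Good.exists_max_image (fun σ =>
    (Finset.univ.filter fun z : _ × _ => SameCycle σ z.1 z.2).card)
    ⟨σ1, Finset.mem_filter.2 ⟨Finset.mem_univ _, hF, fun _ _ h => h⟩⟩
  obtain ⟨-, hform, hext⟩ := Finset.mem_filter.1 hσ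
  have hsquare : ∀ w, P (P w) = w → SameCycle σ w (P w) := by
    intro w hw
    by_contra hn
    set τ := swap w (P w) with hτ
    have hmov : ∀ u, τ u ≠ u → u = w ∨ u = P w := fun u hu => by
      by_contra hn'
      push Not at hn'
      exact hu (swap_apply_of_ne_of_ne hn'.1 hn'.2)
    obtain ⟨hm1, hm2⟩ := merge σ τ fun u v hu hv huv => by
      rcases hmov u hu with rfl | rfl <;> rcases hmov v hv with rfl | rfl
      · rfl
      · exact absurd huv hn
      · exact absurd huv.symm hn
      · rfl
    have hmem : σ * τ ∈ Good := by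
      refine Finset.mem_filter.2 ⟨Finset.mem_univ _, fun u => ?_, fun x y h => hm1 x y (hext x y h)⟩
      rw [mul_apply]
      by_cases hu : τ u = u
      · rw [hu]; exact hform u
      have hPu : P u = τ u ∧ P (P u) = u := by
        rcases hmov u hu with rfl | rfl
        · exact ⟨(swap_apply_left _ _).symm, hw⟩
        · exact ⟨by rw [hw, hτ, swap_apply_right], by rw [hw]⟩
      rw [← hPu.1]
      rcases hform (P u) with h | h
      · exact Or.inr (by rw [h, hPv, ha])
      · refine Or.inl ?_
        have e : a (b (a (b u))) = (u : V) := by rw [← hPv, ← hPv, hPu.2]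
        rw [h, hPv]
        congr 1
        calc b (a (b u)) = a (a (b (a (b u)))) := (ha _).symm
          _ = a u := by rw [e]
    have hlt := hmax _ hmem
    refine absurd hlt (not_le.2 (Finset.card_lt_card ?_))
    rw [Finset.ssubset_iff_of_subset]
    · exact ⟨(w, P w), Finset.mem_filter.2 ⟨Finset.mem_univ _, by
        have := hm2 w; rwa [hτ, swap_apply_left] at this⟩,
        fun h => hn (Finset.mem_filter.1 h).2⟩
    · intro z hz
      exact Finset.mem_filter.2 ⟨Finset.mem_univ _, hm1 _ _ (Finset.mem_filter.1 hz).2⟩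
  -- only the hexagon can cross between two cycles
  have hcross : ∀ w : {v // col v = true}, ¬ SameCycle σ w (P w) →
      rk w = 0 ∧ SameCycle P r1 w := by
    intro w hn
    have hne : P (P w) ≠ w := fun e => hn (hsquare w e)
    have h0 : rk w = 0 := by
      by_contra h0
      exact hn (hext _ _ (hexc' w h0))
    rcases hsq w w.2 with h | h | h
    · exact absurd h0 h
    · exact absurd ((sq w).2 h) hne
    · exact ⟨h0, (pc r1 w).2 h⟩
  -- connectivity leaves a single cycle
  have hone : ∀ w, SameCycle σ r1 w := by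
    let X : {v // col v = true} → Prop := fun w => SameCycle σ r1 w
    let In : V → Prop := fun v =>
      if h : col v = true then X ⟨v, h⟩ else X ⟨a v, by simp [hca, h]⟩
    have hSX : ∀ w, (X (S w) ↔ X w) := fun w => by
      have : SameCycle σ w (S w) :=
        hext _ _ (hS1 _ _ (sameCycle_apply_right.2 (SameCycle.refl _ _)))
      exact ⟨fun h => h.trans this.symm, fun h => h.trans this⟩
    obtain ⟨e, f, hef⟩ : ∃ e f : Sym2 V, ∀ w : {v // col v = true}, ¬(X w ↔ X (P w)) →
        s((w : V), b w) = e ∨ s((w : V), b w) = f := by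
      by_cases h2 : rk v1 ≠ 0 ∨ P (P r1) = r1
      · refine ⟨s(v1, v1), s(v1, v1), fun w hw => absurd ?_ hw⟩
        have : SameCycle σ w (P w) := by
          by_contra hn
          rcases h2 with h2 | h2
          · obtain ⟨h0, hs⟩ := hcross w hn
            exact h2 (((hrk v1 w h1 w.2 h2).2 ((pc r1 w).1 hs)).trans h0)
          obtain ⟨i, -, rfl⟩ := (hcross w hn).2.exists_pow_eq'
          have e : P ^ i * P ^ 2 = P ^ 2 * P ^ i := (Commute.pow_pow_self P i 2).eq
          have := congrArg (fun q : Perm _ => q r1) e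
          simp only [pow_two, mul_apply, h2] at this
          exact hn (hsquare _ this.symm)
        exact ⟨fun h => h.trans this, fun h => h.trans this.symm⟩
      have h3' : P (P (P r1)) = r1 := by
        rcases hex with h | h | h
        · exact absurd (Or.inl h) h2
        · apply Subtype.ext
          rw [hPv, hPv, hPv]
          simpa [pow_succ, mul_apply, r1] using h
        · exact absurd (Or.inr ((sq r1).2 h)) h2
      have orb : ∀ w, ¬(X w ↔ X (P w)) → w = r1 ∨ w = P r1 ∨ w = P (P r1) := by
        intro w hw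
        have hn : ¬ SameCycle σ w (P w) := fun h =>
          hw ⟨fun k => k.trans h, fun k => k.trans h.symm⟩
        obtain ⟨i, -, rfl⟩ := (hcross w hn).2.exists_pow_eq'
        clear hw hn
        induction i with
        | zero => exact Or.inl (by simp)
        | succ i ih =>
          rw [pow_succ', mul_apply]
          rcases ih with h | h | h <;> rw [h]
          · exact Or.inr (Or.inl rfl)
          · exact Or.inr (Or.inr rfl)
          · exact Or.inl h3'
      let E : {v // col v = true} → Sym2 V := fun w => s((w : V), b w)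
      by_cases k0 : X r1 ↔ X (P r1)
      · exact ⟨E (P r1), E (P (P r1)), fun w hw => by
          rcases orb w hw with rfl | rfl | rfl
          · exact absurd k0 hw
          · exact Or.inl rfl
          · exact Or.inr rfl⟩
      by_cases k1 : X (P r1) ↔ X (P (P r1))
      · exact ⟨E r1, E (P (P r1)), fun w hw => by
          rcases orb w hw with rfl | rfl | rfl
          · exact Or.inl rfl
          · exact absurd k1 hw
          · exact Or.inr rfl⟩
      have k2 : X (P (P r1)) ↔ X (P (P (P r1))) := by rw [h3']; tauto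
      exact ⟨E r1, E (P r1), fun w hw => by
        rcases orb w hw with rfl | rfl | rfl
        · exact Or.inl rfl
        · exact Or.inr rfl
        · exact absurd k2 hw⟩
    have InW : ∀ w : {v // col v = true}, In (w : V) ↔ X w := fun w => by
      simp [In, w.2]
    have InB : ∀ w : {v // col v = true}, ∀ u : V, col u = false → a u = w → (In u ↔ X w) :=
      fun w u hu hw => by simp [In, hu, hw]
    have edge : ∀ x (hx : col x = true) (y : V), (y = a x ∨ y = b x ∨ y = c x) →
        s(x, y) ≠ e → s(x, y) ≠ f → (In x ↔ In y) := by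
      intro x hx y hy he hf
      rw [InW ⟨x, hx⟩]
      rcases hy with rfl | rfl | rfl
      · exact (InB ⟨x, hx⟩ _ (by simp [hca, hx]) (ha x)).symm
      · rw [InB (P ⟨x, hx⟩) _ (by simp [hcb, hx]) (hPv ⟨x, hx⟩).symm]
        by_contra hk
        rcases hef ⟨x, hx⟩ hk with h | h
        · exact he h
        · exact hf h
      · have : a (c x) = (S.symm ⟨x, hx⟩ : {v // col v = true}) := by
          have hh := congrArg Subtype.val (Equiv.apply_symm_apply S ⟨x, hx⟩)
          rw [hSv] at hh
          rw [← ha (Subtype.val (S.symm ⟨x, hx⟩))]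
          congr 1
          rw [← hc (a _), hh]
        rw [InB (S.symm ⟨x, hx⟩) _ (by simp [hcc, hx]) this, ← hSX (S.symm ⟨x, hx⟩),
          Equiv.apply_symm_apply]
    intro w
    obtain ⟨p⟩ := (h3 e f).preconnected (w : V) v1
    have keep : ∀ {x y : V}, ((G.deleteEdges {e, f})).Walk x y → (In x ↔ In y) := by
      intro x y p
      induction p with
      | nil => rfl
      | @cons x y z hxy _ ih =>
        refine Iff.trans ?_ ih
        rw [SimpleGraph.deleteEdges_adj, Set.mem_insert_iff, Set.mem_singleton_iff, not_or,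
          hG, SimpleGraph.fromRel_adj] at hxy
        obtain ⟨⟨-, hr⟩, he, hf⟩ := hxy
        have hr' : y = a x ∨ y = b x ∨ y = c x := by
          rcases hr with h | h
          · exact h
          · rcases h with h | h | h <;> subst h <;> simp [ha, hb, hc]
        have hrev : x = a y ∨ x = b y ∨ x = c y := by
          rcases hr' with h | h | h <;> subst h <;> simp [ha, hb, hc]
        cases hx : col x
        · have hy : col y = true := by
            rcases hr' with h | h | h <;> subst h <;> simp [hca, hcb, hcc, hx]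
          exact (edge y hy x hrev (by rwa [Sym2.eq_swap]) (by rwa [Sym2.eq_swap])).symm
        · exact edge x hx y hr' he hf
    exact (InW w).1 ((keep p).2 ((InW r1).2 (SameCycle.refl _ _)))
  -- the closed walk
  let hF' : V → V := fun v => if h : col v = true then c (σ ⟨v, h⟩) else c v
  have hcolF : ∀ v, col (hF' v) = !col v := fun v => by
    cases h : col v <;> simp [hF', h, hcc, (σ ⟨v, _⟩).2]
  have hinj : Function.Injective hF' := by
    intro u v e
    have hcol : col u = col v := by
      have := congrArg col e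
      rw [hcolF, hcolF] at this
      simpa using this
    cases hu : col u
    · have hv : col v = false := by rw [← hcol, hu]
      simpa [hF', hu, hv] using e
    · have hv : col v = true := by rw [← hcol, hu]
      simp only [hF', hu, hv, dite_true] at e
      exact congrArg Subtype.val (σ.injective (Subtype.ext (c.injective e)))
  set h : Perm V := Equiv.ofBijective hF' (Finite.injective_iff_bijective.1 hinj) with hh
  have happ : ∀ v, h v = hF' v := fun v => rfl
  have htwo : ∀ w : {v // col v = true}, h (h (w : V)) = σ w := fun w => by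
    simp [happ, hF', w.2, hcc, (σ w).2, hc]
  refine isHamiltonian_of_iterate G h (fun v => adj v _ ?_ ?_) v1 (fun x => ?_) ?_
  · rw [happ, hcolF]; simp
  · rw [happ]
    cases hv : col v
    · simp [hF', hv]
    · rcases hform ⟨v, hv⟩ with k | k
      · left; simp only [hF', hv, dite_true]; rw [k, hc]
      · right; left; simp only [hF', hv, dite_true]; rw [k, hc]
  · have white : ∀ w : {v // col v = true}, ∃ i : ℕ, h^[i] v1 = w := fun w => by
      obtain ⟨i, -, rfl⟩ := (hone w).exists_pow_eq'
      refine ⟨2 * i, ?_⟩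
      induction i with
      | zero => rfl
      | succ i ih =>
        rw [pow_succ', mul_apply, Nat.mul_succ, Function.iterate_succ_apply',
          Function.iterate_succ_apply', ih, htwo]
    cases hx : col x
    · have hcx : col (c x) = true := by simp [hcc, hx]
      obtain ⟨i, hi⟩ := white (σ.symm ⟨c x, hcx⟩)
      refine ⟨i + 1, ?_⟩
      rw [Function.iterate_succ_apply', hi, happ]
      simp [hF', (σ.symm ⟨c x, hcx⟩).2, hc]
    · exact white ⟨x, hx⟩
  · have hne : ∀ v, a v ≠ v := fun v e => by have := hca v; rw [e] at this; simp at this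
    have hne' : ∀ v, b v ≠ v := fun v e => by have := hcb v; rw [e] at this; simp at this
    calc 3 = ({v1, a v1, b v1} : Finset V).card := by
          rw [Finset.card_eq_three.2 ⟨v1, a v1, b v1, (hne v1).symm, (hne' v1).symm, hab v1, rfl⟩]
      _ ≤ Fintype.card V := Finset.card_le_univ _

end Vale.Agent.Results.P039.QuadrilateralForestClass
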